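import Vale.Agent.P356.Lattice

/-!
# P356: an area law for simple eigenstates of commuting splits and commuting Hamiltonians
-/

namespace Vale.Agent.Results.P356.CommutingSplitAreaLaw

open Matrix Finset Vale.Agent.P356

/-- For every region `A`, a simple eigenvector of `H1 + H2`, with commuting Hermitian `H1`, `H2`
supported within distance `w` of `A` and of its complement, obeys an area law with a constant
depending only on `q` and `w`; hence so does every simple eigenvector (in particular every unique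
ground state) of a Hamiltonian of pairwise commuting terms of range `R`. -/
theorem result :
    (∀ q w : ℕ, ∃ C : ℝ, ∀ (L : ℕ) (A : Finset (Site L)) (H1 H2 : Op L q) (E : ℝ)
      (Ω : Cfg L q → ℂ), H1.IsHermitian → H2.IsHermitian → H1 * H2 = H2 * H1 →
      ActsOn (thicken A w) H1 → ActsOn (thicken Aᶜ w) H2 → SimpleEigen (H1 + H2) E Ω →
      entropy A Ω ≤ C * #(edgeBoundary A)) ∧
    ∀ q R : ℕ, ∃ C : ℝ, ∀ (L : ℕ) (h : Finset (Site L) → Op L q),
      (∀ X, (h X).IsHermitian) → (∀ X, ActsOn X (h X)) →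
      (∀ X, h X ≠ 0 → X.Nonempty ∧ ∀ x ∈ X, ∀ y ∈ X, dist1 x y ≤ R) →
      (∀ X Y, h X * h Y = h Y * h X) →
      ∀ (E : ℝ) (Ω : Cfg L q → ℂ), SimpleEigen (∑ X, h X) E Ω →
        ∀ A : Finset (Site L), entropy A Ω ≤ C * #(edgeBoundary A) :=
  ⟨fun q w => ⟨_, fun _ A _ _ _ _ h1 h2 hc l1 l2 hE =>
      entropy_le_boundary A w h1 h2 hc l1 l2 hE⟩,
    fun q R => ⟨2 * (6 * R + 1 : ℝ) ^ 2 * Real.log q, fun _ h hh hl hd hc _ _ hE A =>
      entropy_le_boundary_commuting A R hh hl hd hc hE⟩⟩

end Vale.Agent.Results.P356.CommutingSplitAreaLaw
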